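import Mathlib

/-!
# S0505, leaf PATH: entries of a product of matrices as sums over index paths
-/

set_option autoImplicit false

namespace Crest.Agent.Helper73.S0505

open Matrix

variable {R : Type*} [CommSemiring R] {n : ℕ}

/-- Entry of a product of `m` matrices as a sum over index paths (`ite` form). -/
theorem list_ofFn_prod_apply_ite :
    ∀ (m : ℕ) (A : Fin m → Matrix (Fin n) (Fin n) R) (i j : Fin n),
      (List.ofFn A).prod i j =
        ∑ f : Fin (m + 1) → Fin n,
          if f 0 = i ∧ f (Fin.last m) = j then ∏ k : Fin m, A k (f k.castSucc) (f k.succ)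
          else 0 := by
  intro m
  induction m with
  | zero =>
    intro A i j
    rw [← (Equiv.funUnique (Fin 1) (Fin n)).symm.sum_comp]
    simp only [List.ofFn_zero, List.prod_nil, Finset.univ_eq_empty, Finset.prod_empty,
      Matrix.one_apply]
    have h : ∀ x : Fin n, ((Equiv.funUnique (Fin 1) (Fin n)).symm x) 0 = x := fun x => rfl
    have h' : ∀ x : Fin n, ((Equiv.funUnique (Fin 1) (Fin n)).symm x) (Fin.last 0) = x :=
      fun x => rfl
    simp only [h, h']
    by_cases hij : i = j
    · subst hij
      simp
    · rw [if_neg hij]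
      refine (Finset.sum_eq_zero fun x _ => ?_).symm
      rw [if_neg]
      rintro ⟨rfl, h2⟩
      exact hij h2
  | succ m ih =>
    intro A i j
    rw [List.ofFn_succ, List.prod_cons, Matrix.mul_apply]
    simp_rw [ih]
    rw [← (Fin.consEquiv (fun _ : Fin (m + 2) => Fin n)).sum_comp, Fintype.sum_prod_type]
    have hcons : ∀ (x : Fin n) (g : Fin (m + 1) → Fin n),
        (Fin.consEquiv (fun _ : Fin (m + 2) => Fin n)) (x, g) = Fin.cons x g := fun x g => rfl
    simp only [hcons, Fin.cons_zero, Fin.prod_univ_succ, Fin.cons_succ, ← Fin.succ_last,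
      Fin.castSucc_zero, ← Fin.succ_castSucc]
    -- both sides equal `∑ g, if g (last m) = j then A 0 i (g 0) * ∏ ... else 0`
    trans ∑ g : Fin (m + 1) → Fin n, if g (Fin.last m) = j then
        A 0 i (g 0) * ∏ k : Fin m, A k.succ (g k.castSucc) (g k.succ) else 0
    · simp_rw [Finset.mul_sum]
      rw [Finset.sum_comm]
      refine Finset.sum_congr rfl fun g _ => ?_
      by_cases hg : g (Fin.last m) = j
      · simp [hg]
      · simp [hg]
    · rw [Finset.sum_comm]
      refine Finset.sum_congr rfl fun g _ => ?_
      by_cases hg : g (Fin.last m) = j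
      · simp [hg]
      · simp [hg]

/-- Entry of a product of `m` matrices as a sum over index paths (`filter` form). -/
theorem list_ofFn_prod_apply (m : ℕ) (A : Fin m → Matrix (Fin n) (Fin n) R) (i j : Fin n) :
    (List.ofFn A).prod i j =
      ∑ f ∈ (Finset.univ : Finset (Fin (m + 1) → Fin n)).filter
          (fun f => f 0 = i ∧ f (Fin.last m) = j),
        ∏ k : Fin m, A k (f k.castSucc) (f k.succ) := by
  rw [list_ofFn_prod_apply_ite, Finset.sum_filter]

end Crest.Agent.Helper73.S0505
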