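import Crest.Agent.Helper91.S0505.Defs
import Crest.Agent.Helper73.S0505.Paths

/-!
# S0505, leaf B (PathSum), second/hedge copy by helper73

Blueprint statement `ofFn_prod_apply`: an entry of a product of `m + 1` matrices is the sum,
over the interior vertices `f : Fin m → Fin n`, of the products along the path `ext i f j`.
-/

set_option autoImplicit false

namespace Crest.Agent.Helper73.S0505

open Crest.Agent.Helper91.S0505

theorem ofFn_prod_apply {R : Type*} [CommSemiring R] {n m : ℕ}
    (Q : Fin (m + 1) → Matrix (Fin n) (Fin n) R) (i j : Fin n) :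
    (List.ofFn Q).prod i j =
      ∑ f : Fin m → Fin n, ∏ g : Fin (m + 1), Q g (ext i f j g.castSucc) (ext i f j g.succ) := by
  rw [list_ofFn_prod_apply_ite]
  rw [← (Fin.consEquiv (fun _ : Fin (m + 2) => Fin n)).sum_comp, Fintype.sum_prod_type]
  have hsum : ∀ x : Fin n,
      (∑ h : Fin (m + 1) → Fin n,
        if (Fin.consEquiv (fun _ : Fin (m + 2) => Fin n)) (x, h) 0 = i ∧
            (Fin.consEquiv (fun _ : Fin (m + 2) => Fin n)) (x, h) (Fin.last (m + 1)) = j then
          ∏ k : Fin (m + 1),
            Q k ((Fin.consEquiv (fun _ : Fin (m + 2) => Fin n)) (x, h) k.castSucc)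
              ((Fin.consEquiv (fun _ : Fin (m + 2) => Fin n)) (x, h) k.succ)
        else 0) =
      ∑ y : Fin n, ∑ f : Fin m → Fin n,
        if x = i ∧ y = j then
          ∏ k : Fin (m + 1), Q k (ext x f y k.castSucc) (ext x f y k.succ)
        else 0 := by
    intro x
    rw [← (Fin.snocEquiv (fun _ : Fin (m + 1) => Fin n)).sum_comp, Fintype.sum_prod_type]
    refine Finset.sum_congr rfl fun y _ => Finset.sum_congr rfl fun f _ => ?_
    have h0 : (Fin.consEquiv (fun _ : Fin (m + 2) => Fin n))
        (x, (Fin.snocEquiv (fun _ : Fin (m + 1) => Fin n)) (y, f)) = ext x f y := rfl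
    rw [h0]
    have h1 : ext x f y 0 = x := rfl
    have h2 : ext x f y (Fin.last (m + 1)) = y := by
      unfold ext
      rw [← Fin.succ_last, Fin.cons_succ, Fin.snoc_last]
    rw [h1, h2]
  simp_rw [hsum]
  rw [Finset.sum_eq_single i]
  · rw [Finset.sum_eq_single j]
    · simp
    · intro y _ hy
      simp [hy]
    · intro h
      exact absurd (Finset.mem_univ j) h
  · intro x _ hx
    simp [hx]
  · intro h
    exact absurd (Finset.mem_univ i) h

end Crest.Agent.Helper73.S0505
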